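import Vale.Agent.P054.MathlibUsed
import Vale.Agent.P054.Bdl.B4
attribute [-instance] ProperSMul.toContinuousSMul IsTopologicalTorsor.toContinuousSMul IdemSemiring.toCanonicallyOrderedAdd IdemSemiring.toMulLeftMono IdemSemiring.toMulRightMono AddQuantale.instAddLeftMono AddQuantale.instAddRightMono Quantale.instMulLeftMono Quantale.instMulRightMono FiniteDimensional.rclike_to_real IsScalarTower.complexToReal FiniteDimensional.complexToReal

set_option linter.all false
set_option autoImplicit false

open Finset Vale.Agent.P054K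

namespace Vale.Agent.P054I

open scoped Classical in
/-- a good top scale: half of the points lie on a hyperplane; flat version -/
theorem L2_topF {d t : ℕ} (P : Finset (EuclideanSpace ℝ (Fin d)))
    (ht : ∀ p ∈ P, (P.image (dist p)).card ≤ t + 1) (Λ : ℝ)
    (hΛ : 2 * Real.log P.card + 1 ≤ Λ) (s : ℕ) (hs : 16 * Λ * ((t:ℝ) + 1 + 2) ≤ s)
    (hP : P.Nonempty) (hgd : Gd P P (S2 P) rng s 2) (g : ℝ)
    (hg : ∀ p0 v : EuclideanSpace ℝ (Fin d), v ≠ 0 →
      ((P.filter (fun z => inner ℝ v (z - p0) = 0)).card : ℝ) ≤ g) :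
    (P.card : ℝ) ≤ 2 * g := by
  have hn1 : (1:ℝ) ≤ P.card := by exact_mod_cast hP.card_pos
  have hlog0 : 0 ≤ Real.log P.card := Real.log_nonneg hn1
  have hΛ1 : 1 ≤ Λ := by linarith only [hΛ, hlog0]
  have hs0 : (0:ℝ) < s := lt_of_lt_of_le (by (clear * - hΛ1; positivity)) hs
  set n : ℝ := (P.card : ℝ) with hn
  have hn0 : 0 < n := by linarith only [hn1]
  -- representatives
  have hz : ∀ (p : EuclideanSpace ℝ (Fin d)) (ρ : ℝ), ∃ z : EuclideanSpace ℝ (Fin d),
      ρ ∈ P.image (dist p) → (z ∈ P ∧ dist p z = ρ) := by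
    intro p ρ
    by_cases h : ρ ∈ P.image (dist p)
    · obtain ⟨z, hz, hz2⟩ := mem_image.mp h
      exact ⟨z, fun _ => ⟨hz, hz2⟩⟩
    · exact ⟨p, fun h' => absurd h' h⟩
  choose z hz using hz
  set Rep := P.biUnion (fun p => (P.image (dist p)).image (fun ρ => ((p, z p ρ), true))) with hRep
  have hRepS : Rep ⊆ S2 P := by
    intro σ hσ
    rw [hRep, mem_biUnion] at hσ
    obtain ⟨p, hp, hσ⟩ := hσ
    rw [mem_image] at hσ
    obtain ⟨ρ, hρ, rfl⟩ := hσ
    unfold S2
    rw [mem_product, mem_product]
    exact ⟨⟨hp, (hz p ρ hρ).1⟩, mem_univ _⟩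
  have hRepc : (Rep.card : ℝ) ≤ n * (t + 1) := by
    have h1 : Rep.card ≤ P.card * (t + 1) := by
      calc Rep.card ≤ ∑ p ∈ P, ((P.image (dist p)).image (fun ρ => ((p, z p ρ), true))).card :=
            card_biUnion_le
        _ ≤ ∑ _p ∈ P, (t + 1) := Finset.sum_le_sum (fun p hp => card_image_le.trans (ht p hp))
        _ = P.card * (t + 1) := by rw [Finset.sum_const, smul_eq_mul]
    rw [hn]; exact_mod_cast h1
  set w : (EuclideanSpace ℝ (Fin d) × EuclideanSpace ℝ (Fin d)) × Bool → ℝ :=
    fun σ => if σ ∈ Rep then 1 else 1 / n with hw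
  have hwpos : ∀ σ, 0 < w σ := by
    intro σ
    simp only [hw]
    split_ifs
    · exact one_pos
    · (clear * - hP; positivity)
  have hwle : ∀ σ ∈ S2 P, w σ ≤ (if σ ∈ Rep then 1 else 0) + 1 / n := by
    intro σ _
    simp only [hw]
    have : 0 < 1 / n := by (clear * - hP; positivity)
    split_ifs <;> linarith only [this]
  have hwsum : ∑ σ ∈ S2 P, w σ ≤ n * (t + 1 + 2) := by
    calc ∑ σ ∈ S2 P, w σ ≤ ∑ σ ∈ S2 P, ((if σ ∈ Rep then (1:ℝ) else 0) + 1 / n) :=
          Finset.sum_le_sum hwle
      _ = ((S2 P ∩ Rep).card : ℝ) + (S2 P).card * (1 / n) := by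
          rw [Finset.sum_add_distrib, Finset.sum_const, nsmul_eq_mul, Finset.sum_ite_mem,
            Finset.sum_const, nsmul_eq_mul, mul_one]
      _ ≤ n * (t + 1) + 2 * n := by
          apply add_le_add
          · refine le_trans ?_ hRepc
            exact_mod_cast card_le_card inter_subset_right
          · rw [card_S2]
            push_cast
            rw [← hn]
            apply le_of_eq
            field_simp
      _ = n * (t + 1 + 2) := by ring
  obtain ⟨y, hy, y', hy', hne, hsep⟩ := top_good P (S2 P) rng s hP hgd w (fun σ _ => hwpos σ)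
  set Bad := P.filter (fun p => dist p y ≠ dist p y') with hBad
  set P' := P.filter (fun p => dist p y = dist p y') with hP'
  have hsplit : P'.card + Bad.card = P.card := Finset.card_filter_add_card_filter_not _
  have hBadw : (Bad.card : ℝ) ≤ ∑ σ ∈ S2 P with rng σ y ≠ rng σ y', w σ := by
    set f : EuclideanSpace ℝ (Fin d) → (EuclideanSpace ℝ (Fin d) × EuclideanSpace ℝ (Fin d)) × Bool :=
      fun p => ((p, z p (min (dist p y) (dist p y'))), true) with hf
    have hfinj : Set.InjOn f (Bad : Set (EuclideanSpace ℝ (Fin d))) := by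
      intro p _ p' _ hpp
      have := congrArg (fun σ => σ.1.1) hpp
      exact this
    have hmin : ∀ p ∈ Bad, min (dist p y) (dist p y') ∈ P.image (dist p) := by
      intro p _
      rcases min_choice (dist p y) (dist p y') with h | h
      · rw [h]; exact mem_image_of_mem _ hy
      · rw [h]; exact mem_image_of_mem _ hy'
    have hfRep : ∀ p ∈ Bad, f p ∈ Rep := by
      intro p hp
      rw [hRep, mem_biUnion]
      refine ⟨p, (mem_filter.mp hp).1, ?_⟩
      rw [mem_image]
      exact ⟨_, hmin p hp, rfl⟩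
    have hsub : Bad.image f ⊆ (S2 P).filter (fun σ => rng σ y ≠ rng σ y') := by
      intro σ hσ
      rw [mem_image] at hσ
      obtain ⟨p, hp, rfl⟩ := hσ
      rw [mem_filter]
      refine ⟨hRepS (hfRep p hp), ?_⟩
      intro h1
      apply (mem_filter.mp hp).2
      have hzp := (hz p _ (hmin p hp)).2
      have h2 := rng_ball p (z p (min (dist p y) (dist p y'))) y
      have h3 := rng_ball p (z p (min (dist p y) (dist p y'))) y'
      rw [hzp] at h2 h3
      simp only [hf] at h1
      rw [h1] at h2
      rw [h2] at h3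
      rcases le_total (dist p y) (dist p y') with h | h
      · rw [min_eq_left h] at h3
        exact le_antisymm h (h3.mp le_rfl)
      · rw [min_eq_right h] at h3
        exact le_antisymm (h3.mpr le_rfl) h
    calc (Bad.card : ℝ) = ((Bad.image f).card : ℝ) := by rw [Finset.card_image_of_injOn hfinj]
      _ = ∑ σ ∈ Bad.image f, (1:ℝ) := by rw [Finset.sum_const, nsmul_eq_mul, mul_one]
      _ = ∑ σ ∈ Bad.image f, w σ := by
          apply Finset.sum_congr rfl
          intro σ hσ
          rw [mem_image] at hσ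
          obtain ⟨p, hp, rfl⟩ := hσ
          simp only [hw]
          rw [if_pos (hfRep p hp)]
      _ ≤ ∑ σ ∈ S2 P with rng σ y ≠ rng σ y', w σ :=
          Finset.sum_le_sum_of_subset_of_nonneg hsub (fun σ _ _ => (hwpos σ).le)
  have hBadle : (Bad.card : ℝ) ≤ n / 2 := by
    refine hBadw.trans (le_trans (by convert hsep) ?_)
    calc (2 * Real.log P.card + 1) / s * ∑ σ ∈ S2 P, w σ
        ≤ (2 * Real.log P.card + 1) / s * (n * (t + 1 + 2)) :=
          mul_le_mul_of_nonneg_left hwsum (by (clear * - hs0; positivity))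
      _ ≤ n / 2 := by
          rw [div_mul_eq_mul_div, div_le_iff₀ hs0]
          have h1 : (2 * Real.log P.card + 1) * ((t:ℝ) + 1 + 2) ≤ Λ * ((t:ℝ) + 1 + 2) :=
            mul_le_mul_of_nonneg_right hΛ (by (clear * -; positivity))
          have h2 : (2 * Real.log P.card + 1) * ((t:ℝ) + 1 + 2) ≤ s / 2 := by
            have : 0 ≤ Λ * ((t:ℝ) + 1 + 2) := by (clear * - hΛ1; positivity)
            linarith only [hs, h1]
          calc (2 * Real.log P.card + 1) * (n * ((t:ℝ) + 1 + 2))
              = n * ((2 * Real.log P.card + 1) * ((t:ℝ) + 1 + 2)) := by ring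
            _ ≤ n * (s / 2) := mul_le_mul_of_nonneg_left h2 hn0.le
            _ = n / 2 * s := by ring
  have hP'ge : n ≤ 2 * P'.card := by
    have : (P'.card : ℝ) + Bad.card = n := by rw [hn]; exact_mod_cast hsplit
    linarith only [hBadle, this]
  have hsubH : P' ⊆ P.filter (fun z => inner ℝ (y - y') (z - (1 / 2 : ℝ) • (y + y')) = 0) := by
    intro z hz'
    rw [hP', mem_filter] at hz'
    rw [mem_filter]
    refine ⟨hz'.1, ?_⟩
    have h1 : ‖z - y‖ ^ 2 = ‖z - y'‖ ^ 2 := by
      rw [← dist_eq_norm, ← dist_eq_norm, hz'.2]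
    rw [← real_inner_self_eq_norm_sq, ← real_inner_self_eq_norm_sq, inner_sub_left, inner_sub_right,
      inner_sub_right, inner_sub_left, inner_sub_right, inner_sub_right] at h1
    rw [inner_sub_right, inner_sub_left, inner_smul_right, inner_sub_left, inner_add_right,
      inner_add_right]
    have h2 := real_inner_comm y z
    have h3 := real_inner_comm y' z
    have h4 := real_inner_comm y y'
    linarith only [h1, h2, h3, h4]
  have hflat := hg ((1 / 2 : ℝ) • (y + y')) (y - y') (sub_ne_zero.mpr hne)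
  have hcc : (P'.card : ℝ) ≤
      ((P.filter (fun z => inner ℝ (y - y') (z - (1 / 2 : ℝ) • (y + y')) = 0)).card : ℝ) := by
    exact_mod_cast card_le_card hsubH
  linarith only [hP'ge, hflat, hcc]

open scoped Classical in
/-- the sections by hyperplanes are small if the sets of dimension `d - 1` are -/
theorem sect_of_pinned {d t : ℕ} (hd : 1 ≤ d) {g : ℝ} (hg : PinnedBy (d - 1) t g)
    (P : Finset (EuclideanSpace ℝ (Fin d))) (ht : ∀ p ∈ P, (P.image (dist p)).card ≤ t + 1)
    (p0 v : EuclideanSpace ℝ (Fin d)) (hv : v ≠ 0) :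
    ((P.filter (fun z => inner ℝ v (z - p0) = 0)).card : ℝ) ≤ g := by
  refine flat_bound (j := d - 1) P _ (filter_subset _ _) ht
    (Submodule.span ℝ {((v, 2 * inner ℝ p0 v) : EuclideanSpace ℝ (Fin d) × ℝ)}) ?_ ?_ hg
  · intro p hp
    rw [Submodule.span_le]
    intro u hu
    rw [Set.mem_singleton_iff] at hu
    rw [hu]
    have h1 := (mem_filter.mp hp).2
    rw [SetLike.mem_coe, mem_hyp]
    rw [inner_sub_right, real_inner_comm p v, real_inner_comm p0 v] at h1
    linarith only [h1]
  · rw [finrank_span_singleton (by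
      intro h
      exact hv (congrArg Prod.fst h))]
    omega

end Vale.Agent.P054I
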