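import Vale.Agent.P054.MathlibUsed
import Vale.Agent.P054.Bdl.B2
import Vale.Agent.P054.Bdl.B3
attribute [-instance] ProperSMul.toContinuousSMul IsTopologicalTorsor.toContinuousSMul IdemSemiring.toCanonicallyOrderedAdd IdemSemiring.toMulLeftMono IdemSemiring.toMulRightMono AddQuantale.instAddLeftMono AddQuantale.instAddRightMono Quantale.instMulLeftMono Quantale.instMulRightMono FiniteDimensional.rclike_to_real IsScalarTower.complexToReal FiniteDimensional.complexToReal

set_option linter.all false
set_option autoImplicit false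

open Finset

namespace Vale.Agent.P054F

open Vale.Agent.P054K

open scoped Classical in
/-- independent tuples in a nondegenerate subspace -/
theorem indep_tuples {V ι : Type} [AddCommGroup V] [Module ℝ V] [FiniteDimensional ℝ V]
    (I : Finset ι) (v : ι → V) (A : Submodule ℝ V)
    (L : ℝ) (hL : 2 ≤ L) (hB : ∀ B : Submodule ℝ V, B < A → L * mass I v B ≤ mass I v A) :
    ∀ r : ℕ, r ≤ Module.finrank ℝ A → (mass I v A / 2) ^ r ≤
      (((Fintype.piFinset (fun _ : Fin r => I.filter (fun i => v i ∈ A))).filter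
        (fun g => LinearIndependent ℝ (fun i => v (g i)))).card : ℝ) := by
  intro r
  induction r with
  | zero =>
    intro _
    have h1 : ((Fintype.piFinset (fun _ : Fin 0 => I.filter (fun i => v i ∈ A))).filter
        (fun g => LinearIndependent ℝ (fun i => v (g i)))).Nonempty := by
      refine ⟨Fin.elim0, ?_⟩
      rw [mem_filter, Fintype.mem_piFinset]
      exact ⟨fun i => i.elim0, linearIndependent_empty_type⟩
    rw [pow_zero]
    exact_mod_cast Finset.card_pos.mpr h1
  | succ r ih =>
    intro hr
    have ih' := ih (by omega)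
    have hext : ∀ g ∈ (Fintype.piFinset (fun _ : Fin r => I.filter (fun i => v i ∈ A))).filter
        (fun g => LinearIndependent ℝ (fun i => v (g i))),
        mass I v A / 2 ≤ (((I.filter (fun i => v i ∈ A)).filter
          (fun i => v i ∉ Submodule.span ℝ (Set.range (fun j => v (g j))))).card : ℝ) := by
      intro g hg
      rw [mem_filter, Fintype.mem_piFinset] at hg
      obtain ⟨hg1, hg2⟩ := hg
      set B : Submodule ℝ V := Submodule.span ℝ (Set.range (fun j => v (g j))) with hBdef
      have hBA : B ≤ A := by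
        rw [hBdef, Submodule.span_le]
        rintro _ ⟨j, rfl⟩
        exact (mem_filter.mp (hg1 j)).2
      have hfB : Module.finrank ℝ B = r := by
        rw [hBdef, finrank_span_eq_card hg2, Fintype.card_fin]
      have hlt : B < A := by
        refine lt_of_le_of_ne hBA ?_
        intro h
        rw [h] at hfB
        omega
      have h1 := hB B hlt
      have h0 : 0 ≤ mass I v B := mass_nonneg _ _ _
      have h2 : 2 * mass I v B ≤ mass I v A := by nlinarith
      have h3 : ((I.filter (fun i => v i ∈ A)).filter (fun i => v i ∈ B)).card +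
          ((I.filter (fun i => v i ∈ A)).filter (fun i => v i ∉ B)).card =
          (I.filter (fun i => v i ∈ A)).card := Finset.card_filter_add_card_filter_not _
      have h4 : (I.filter (fun i => v i ∈ A)).filter (fun i => v i ∈ B) =
          I.filter (fun i => v i ∈ B) := by
        ext i
        simp only [mem_filter]
        constructor
        · rintro ⟨⟨a, _⟩, c⟩; exact ⟨a, c⟩
        · rintro ⟨a, c⟩; exact ⟨⟨a, hBA c⟩, c⟩
      rw [h4] at h3
      have h5 : mass I v B + (((I.filter (fun i => v i ∈ A)).filter (fun i => v i ∉ B)).card : ℝ) =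
          mass I v A := by
        unfold mass
        exact_mod_cast h3
      linarith
    set S := (Fintype.piFinset (fun _ : Fin r => I.filter (fun i => v i ∈ A))).filter
        (fun g => LinearIndependent ℝ (fun i => v (g i))) with hS
    have hcard : (S.sigma (fun g => (I.filter (fun i => v i ∈ A)).filter
          (fun i => v i ∉ Submodule.span ℝ (Set.range (fun j => v (g j)))))).card ≤
        ((Fintype.piFinset (fun _ : Fin (r + 1) => I.filter (fun i => v i ∈ A))).filter
        (fun g => LinearIndependent ℝ (fun i => v (g i)))).card := by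
      apply Finset.card_le_card_of_injOn
        (fun x : (Σ _ : (Fin r → ι), ι) => (Fin.cons x.2 x.1 : Fin (r + 1) → ι))
      · rintro ⟨g, i⟩ hx
        rw [mem_coe, mem_sigma, hS, mem_filter, mem_filter, Fintype.mem_piFinset] at hx
        obtain ⟨⟨hg1, hg2⟩, hi1, hi2⟩ := hx
        rw [mem_coe, mem_filter, Fintype.mem_piFinset]
        constructor
        · intro j
          refine Fin.cases ?_ ?_ j
          · simpa using hi1
          · intro k; simpa using hg1 k
        · have hcons : (fun j : Fin (r + 1) => v ((Fin.cons i g : Fin (r + 1) → ι) j)) =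
              Fin.cons (v i) (fun j => v (g j)) := by
            funext j
            refine Fin.cases ?_ ?_ j
            · simp
            · intro k; simp
          show LinearIndependent ℝ (fun j : Fin (r + 1) => v ((Fin.cons i g : Fin (r + 1) → ι) j))
          rw [hcons, linearIndependent_finCons]
          exact ⟨hg2, hi2⟩
      · rintro ⟨g, i⟩ _ ⟨g', i'⟩ _ h
        simp only at h
        have h2 := Fin.cons_injective2 h
        obtain ⟨h3, h4⟩ := h2
        subst h3; subst h4; rfl
    rw [Finset.card_sigma] at hcard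
    have h6 : ∑ _g ∈ S, mass I v A / 2 ≤ ∑ g ∈ S, (((I.filter (fun i => v i ∈ A)).filter
          (fun i => v i ∉ Submodule.span ℝ (Set.range (fun j => v (g j))))).card : ℝ) :=
      Finset.sum_le_sum hext
    rw [Finset.sum_const, nsmul_eq_mul] at h6
    have h7 : ((∑ g ∈ S, ((I.filter (fun i => v i ∈ A)).filter
          (fun i => v i ∉ Submodule.span ℝ (Set.range (fun j => v (g j))))).card : ℕ) : ℝ) ≤
        (((Fintype.piFinset (fun _ : Fin (r + 1) => I.filter (fun i => v i ∈ A))).filter
        (fun g => LinearIndependent ℝ (fun i => v (g i)))).card : ℝ) := by exact_mod_cast hcard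
    push_cast at h7
    have h8 : 0 ≤ mass I v A / 2 := by
      have := mass_nonneg I v A
      linarith
    calc (mass I v A / 2) ^ (r + 1) = (mass I v A / 2) ^ r * (mass I v A / 2) := pow_succ _ _
      _ ≤ (S.card : ℝ) * (mass I v A / 2) := mul_le_mul_of_nonneg_right ih' h8
      _ ≤ _ := h6.trans h7

open scoped Classical in
/-- count of the points with a nondegenerate rich subspace of dimension at least `r` -/
theorem kr_count {d : ℕ} (P Pr : Finset (EuclideanSpace ℝ (Fin d)))
    (T : Finset (EuclideanSpace ℝ (Fin d) × EuclideanSpace ℝ (Fin d)))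
    (Ap : EuclideanSpace ℝ (Fin d) → Submodule ℝ (EuclideanSpace ℝ (Fin d) × ℝ))
    (r : ℕ) (L θ M : ℝ) (hL : 2 ≤ L) (hsub : Pr ⊆ P) (hA : ∀ p ∈ Pr, Ap p ≤ hyp p)
    (hfr : ∀ p ∈ Pr, r ≤ Module.finrank ℝ (Ap p)) (hθ : ∀ p ∈ Pr, θ ≤ mass T dualVec (Ap p))
    (hθ0 : 0 ≤ θ)
    (hB : ∀ p ∈ Pr, ∀ B : Submodule ℝ (EuclideanSpace ℝ (Fin d) × ℝ), B < Ap p →
      L * mass T dualVec B ≤ mass T dualVec (Ap p)) (hM0 : 0 ≤ M)
    (hM : ∀ A : Submodule ℝ (EuclideanSpace ℝ (Fin d) × ℝ), Module.finrank ℝ A = r →
      ((P.filter (fun p => A ≤ hyp p)).card : ℝ) ≤ M) :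
    (Pr.card : ℝ) * (θ / 2) ^ r ≤ (T.card : ℝ) ^ r * M := by
  set U := (Fintype.piFinset (fun _ : Fin r => T)).filter
    (fun g => LinearIndependent ℝ (fun i => dualVec (g i))) with hU
  have h1 : ∀ p ∈ Pr, (θ / 2) ^ r ≤ ((U.filter (fun g => ∀ i, dualVec (g i) ∈ hyp p)).card : ℝ) := by
    intro p hp
    have h2 := indep_tuples T dualVec (Ap p) L hL (hB p hp) r (hfr p hp)
    have h3 : (θ / 2) ^ r ≤ (mass T dualVec (Ap p) / 2) ^ r := by
      apply pow_le_pow_left₀ (by positivity)
      have := hθ p hp
      linarith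
    refine h3.trans (h2.trans ?_)
    have h4 : ((Fintype.piFinset (fun _ : Fin r => T.filter (fun i => dualVec i ∈ Ap p))).filter
        (fun g => LinearIndependent ℝ (fun i => dualVec (g i)))).card ≤
        (U.filter (fun g => ∀ i, dualVec (g i) ∈ hyp p)).card := by
      apply card_le_card
      intro g hg
      rw [mem_filter, Fintype.mem_piFinset] at hg
      rw [mem_filter, hU, mem_filter, Fintype.mem_piFinset]
      exact ⟨⟨fun i => (mem_filter.mp (hg.1 i)).1, hg.2⟩,
        fun i => hA p hp (mem_filter.mp (hg.1 i)).2⟩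
    exact_mod_cast h4
  have h5 : ∑ _p ∈ Pr, (θ / 2) ^ r ≤
      ∑ p ∈ Pr, ((U.filter (fun g => ∀ i, dualVec (g i) ∈ hyp p)).card : ℝ) := Finset.sum_le_sum h1
  rw [Finset.sum_const, nsmul_eq_mul] at h5
  have h6 : ∑ p ∈ Pr, ((U.filter (fun g => ∀ i, dualVec (g i) ∈ hyp p)).card : ℝ) =
      ∑ g ∈ U, ((Pr.filter (fun p => ∀ i, dualVec (g i) ∈ hyp p)).card : ℝ) := by
    have h7 : ∑ p ∈ Pr, (U.filter (fun g => ∀ i, dualVec (g i) ∈ hyp p)).card =
      ∑ g ∈ U, (Pr.filter (fun p => ∀ i, dualVec (g i) ∈ hyp p)).card := by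
      simp only [Finset.card_filter]
      exact Finset.sum_comm
    exact_mod_cast h7
  have h8 : ∀ g ∈ U, ((Pr.filter (fun p => ∀ i, dualVec (g i) ∈ hyp p)).card : ℝ) ≤ M := by
    intro g hg
    rw [hU, mem_filter] at hg
    refine le_trans ?_ (hM (Submodule.span ℝ (Set.range (fun i => dualVec (g i))))
      (by rw [finrank_span_eq_card hg.2, Fintype.card_fin]))
    have h9 : (Pr.filter (fun p => ∀ i, dualVec (g i) ∈ hyp p)).card ≤
        (P.filter (fun p => Submodule.span ℝ (Set.range (fun i => dualVec (g i))) ≤ hyp p)).card := by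
      apply card_le_card
      intro p hp
      rw [mem_filter] at hp ⊢
      refine ⟨hsub hp.1, ?_⟩
      rw [Submodule.span_le]
      rintro _ ⟨i, rfl⟩
      exact hp.2 i
    exact_mod_cast h9
  have h10 : ∑ g ∈ U, ((Pr.filter (fun p => ∀ i, dualVec (g i) ∈ hyp p)).card : ℝ) ≤ U.card * M := by
    rw [← nsmul_eq_mul]
    exact Finset.sum_le_card_nsmul U _ M h8
  have h11 : (U.card : ℝ) ≤ (T.card : ℝ) ^ r := by
    have h12 : U.card ≤ T.card ^ r := by
      refine (card_filter_le _ _).trans (le_of_eq ?_)
      rw [Fintype.card_piFinset_const]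
    exact_mod_cast h12
  calc (Pr.card : ℝ) * (θ / 2) ^ r ≤ _ := h5
    _ = _ := h6
    _ ≤ U.card * M := h10
    _ ≤ (T.card : ℝ) ^ r * M := mul_le_mul_of_nonneg_right h11 hM0

end Vale.Agent.P054F
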