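import Vale.Agent.P054.MathlibUsed
import Vale.Agent.P054.H239.Sec
attribute [-instance] ProperSMul.toContinuousSMul IsTopologicalTorsor.toContinuousSMul IdemSemiring.toCanonicallyOrderedAdd IdemSemiring.toMulLeftMono IdemSemiring.toMulRightMono AddQuantale.instAddLeftMono AddQuantale.instAddRightMono Quantale.instMulLeftMono Quantale.instMulRightMono FiniteDimensional.rclike_to_real IsScalarTower.complexToReal FiniteDimensional.complexToReal

set_option linter.all false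
set_option autoImplicit false

open Finset Vale.Agent.P054K

namespace Vale.Agent.P054I

open scoped Classical in
/-- a lower bound for the number of distances as an exponent of the class `DC` -/
theorem sex_of_lower (d : ℕ) (α : ℝ) (hα : 0 < α)
    (h : ∀ ε : ℝ, 0 < ε → ∃ c : ℝ, 0 < c ∧ ∀ P : Finset (EuclideanSpace ℝ (Fin d)), 2 ≤ P.card →
      c * (P.card : ℝ) ^ (1 / α - ε) ≤ (((P.offDiag).image (fun p => dist p.1 p.2)).card : ℝ)) :
    Sex d (DC d) α := by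
  intro ε hε
  obtain ⟨a, ha⟩ : ∃ a : ℝ, a = α + ε := ⟨_, rfl⟩
  have ha0 : 0 < a := by rw [ha]; positivity
  have hlt : 1 / a < 1 / α := one_div_lt_one_div_of_lt hα (by rw [ha]; linarith only [hε])
  obtain ⟨c, hc, hP⟩ := h (1 / α - 1 / a) (by linarith only [hlt])
  have hca : 0 < c⁻¹ ^ a := by positivity
  refine ⟨1 + c⁻¹ ^ a, by positivity, ?_⟩
  intro t ht P hS
  rw [← ha]
  have ht1 : (1:ℝ) ≤ t := by exact_mod_cast ht
  have hta : (1:ℝ) ≤ (t:ℝ) ^ a := Real.one_le_rpow ht1 ha0.le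
  rcases Nat.lt_or_ge P.card 2 with h2 | h2
  · have h3 : (P.card : ℝ) ≤ 1 := by exact_mod_cast (by omega : P.card ≤ 1)
    have h4 : 0 ≤ c⁻¹ ^ a * (t:ℝ) ^ a := by positivity
    nlinarith only [h3, h4, hta]
  · have h3 := hP P h2
    have hn1 : (1:ℝ) ≤ P.card := by exact_mod_cast (by omega : 1 ≤ P.card)
    have h4 : (((P.offDiag).image (fun p => dist p.1 p.2)).card : ℝ) ≤ t := by
      have h5 : DC d t P := hS
      unfold DC at h5
      exact_mod_cast h5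
    rw [show 1 / α - (1 / α - 1 / a) = 1 / a by ring] at h3
    have h5 : (P.card : ℝ) ^ (1 / a) ≤ c⁻¹ * t := by
      rw [← div_eq_inv_mul, le_div_iff₀ hc]
      linarith only [h3, h4]
    have h6 : ((P.card : ℝ) ^ (1 / a)) ^ a ≤ (c⁻¹ * t) ^ a :=
      Real.rpow_le_rpow (by positivity) h5 ha0.le
    rw [← Real.rpow_mul (by positivity), one_div_mul_cancel ha0.ne', Real.rpow_one,
      Real.mul_rpow (by positivity) (by positivity)] at h6
    have h7 : 0 ≤ (t:ℝ) ^ a := by positivity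
    nlinarith only [h6, h7]

open scoped Classical in
/-- Cauchy–Schwarz for a map with values in `T` -/
theorem cs_dist {α : Type*} (S : Finset α) (D : α → α → ℝ) (T : Finset ℝ)
    (hT : ∀ a ∈ S, ∀ b ∈ S, D a b ∈ T) :
    (S.card ^ 2) ^ 2 ≤ T.card *
      ((((S ×ˢ S) ×ˢ (S ×ˢ S)).filter (fun q => D q.1.1 q.1.2 = D q.2.1 q.2.2)).card) := by
  have h1 : (S ×ˢ S).card = ∑ t ∈ T, ((S ×ˢ S).filter (fun p => D p.1 p.2 = t)).card :=
    card_eq_sum_card_fiberwise (fun p hp => by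
      have hp' := mem_product.1 (mem_coe.1 hp)
      exact hT _ hp'.1 _ hp'.2)
  have h2 : (((S ×ˢ S) ×ˢ (S ×ˢ S)).filter
      (fun q => D q.1.1 q.1.2 = D q.2.1 q.2.2)).card =
      ∑ t ∈ T, ((S ×ˢ S).filter (fun p => D p.1 p.2 = t)).card ^ 2 := by
    rw [card_eq_sum_card_fiberwise (f := fun q : (α × α) × (α × α) => D q.1.1 q.1.2) (t := T)
      (fun q hq => by
        have hq' := (mem_filter.1 (mem_coe.1 hq)).1
        rw [mem_product, mem_product] at hq'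
        exact hT _ hq'.1.1 _ hq'.1.2)]
    refine sum_congr rfl (fun t _ => ?_)
    rw [sq, ← card_product]
    congr 1
    ext q
    simp only [mem_filter, mem_product]
    constructor
    · rintro ⟨⟨⟨h1, h2⟩, h3⟩, h4⟩
      exact ⟨⟨h1, h4⟩, ⟨h2, h3 ▸ h4⟩⟩
    · rintro ⟨⟨h1, h2⟩, ⟨h3, h4⟩⟩
      exact ⟨⟨⟨h1, h3⟩, h2.trans h4.symm⟩, h2⟩
  have h3 : (S.card ^ 2) = (S ×ˢ S).card := by rw [card_product, sq]
  rw [h3, h1, h2]
  exact sq_sum_le_card_mul_sum_sq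

/-- the plane as `ℂ` -/
noncomputable def toC (p : EuclideanSpace ℝ (Fin 2)) : ℂ := ⟨p 0, p 1⟩

theorem dist_toC (p q : EuclideanSpace ℝ (Fin 2)) : dist (toC p) (toC q) = dist p q := by
  rw [EuclideanSpace.dist_eq, Complex.dist_eq_re_im, Fin.sum_univ_two, Real.dist_eq, Real.dist_eq,
    sq_abs, sq_abs]
  rfl

theorem toC_inj : Function.Injective toC := by
  intro p q h
  have h1 := dist_toC p q
  rw [h, dist_self] at h1
  exact dist_eq_zero.mp h1.symm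

open scoped Classical in
/-- the number of distances in the plane from the Guth–Katz energy bound -/
theorem plane_lower
    (hGK : ∀ ε : ℝ, 0 < ε → ∃ C : ℝ, 0 < C ∧ ∀ K : Finset ℂ,
      ((((K ×ˢ K) ×ˢ (K ×ˢ K)).filter
        (fun q => dist q.1.1 q.1.2 = dist q.2.1 q.2.2)).card : ℝ) ≤ C * (K.card : ℝ) ^ (3 + ε))
    (ε : ℝ) (hε : 0 < ε) : ∃ c : ℝ, 0 < c ∧
    ∀ P : Finset (EuclideanSpace ℝ (Fin 2)), 2 ≤ P.card →
      c * (P.card : ℝ) ^ (1 / (1:ℝ) - ε) ≤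
        (((P.offDiag).image (fun p => dist p.1 p.2)).card : ℝ) := by
  obtain ⟨C, hC, h⟩ := hGK ε hε
  refine ⟨(2 * C)⁻¹, by positivity, ?_⟩
  intro P hP
  have hn1 : (1:ℝ) ≤ P.card := by exact_mod_cast (by omega : 1 ≤ P.card)
  have hn0 : (0:ℝ) < P.card := by linarith only [hn1]
  obtain ⟨T, hT⟩ : ∃ T : Finset ℝ, T = insert 0 ((P.offDiag).image (fun p => dist p.1 p.2)) :=
    ⟨_, rfl⟩
  have hmem : ∀ a ∈ P, ∀ b ∈ P, dist a b ∈ T := by
    intro a ha b hb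
    rw [hT, mem_insert, mem_image]
    by_cases hab : a = b
    · left; rw [hab, dist_self]
    · right
      exact ⟨(a, b), mem_offDiag.mpr ⟨ha, hb, hab⟩, rfl⟩
  have hpos : 1 ≤ ((P.offDiag).image (fun p => dist p.1 p.2)).card := by
    obtain ⟨a, ha, b, hb, hab⟩ := Finset.one_lt_card.1 (show 1 < P.card by omega)
    have hm : (a, b) ∈ P.offDiag := mem_offDiag.mpr ⟨ha, hb, hab⟩
    exact Finset.card_pos.mpr ⟨_, mem_image_of_mem _ hm⟩
  have hTc : T.card ≤ 2 * ((P.offDiag).image (fun p => dist p.1 p.2)).card := by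
    rw [hT]
    refine (card_insert_le _ _).trans ?_
    omega
  have hcs := cs_dist P (fun a b => dist a b) T hmem
  obtain ⟨K, hK⟩ : ∃ K : Finset ℂ, K = P.image toC := ⟨_, rfl⟩
  have hKc : K.card = P.card := by rw [hK]; exact card_image_of_injective _ toC_inj
  have hle : (((P ×ˢ P) ×ˢ (P ×ˢ P)).filter
      (fun q => dist q.1.1 q.1.2 = dist q.2.1 q.2.2)).card ≤
      (((K ×ˢ K) ×ˢ (K ×ˢ K)).filter
      (fun q => dist q.1.1 q.1.2 = dist q.2.1 q.2.2)).card := by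
    apply card_le_card_of_injOn (fun q => ((toC q.1.1, toC q.1.2), (toC q.2.1, toC q.2.2)))
    · rintro ⟨⟨a, b⟩, ⟨c, d'⟩⟩ hq
      have hq' := mem_filter.1 (mem_coe.1 hq)
      simp only [mem_product] at hq'
      obtain ⟨⟨⟨ha, hb⟩, hc, hd⟩, hdist⟩ := hq'
      rw [mem_coe, mem_filter]
      simp only [mem_product, hK]
      refine ⟨⟨⟨mem_image_of_mem _ ha, mem_image_of_mem _ hb⟩,
        mem_image_of_mem _ hc, mem_image_of_mem _ hd⟩, ?_⟩
      rw [dist_toC, dist_toC]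
      exact hdist
    · rintro ⟨⟨a, b⟩, ⟨c, d1⟩⟩ hq ⟨⟨a', b'⟩, ⟨c', d1'⟩⟩ hq' h
      simp only [Prod.mk.injEq] at h ⊢
      exact ⟨⟨toC_inj h.1.1, toC_inj h.1.2⟩, toC_inj h.2.1, toC_inj h.2.2⟩
  have h1 := h K
  rw [hKc] at h1
  obtain ⟨k, hk⟩ : ∃ k : ℝ, k = (P.card : ℝ) := ⟨_, rfl⟩
  rw [← hk] at h1 hn1 hn0 ⊢
  have hcs2 : k ^ 4 ≤ (T.card : ℝ) * (C * k ^ (3 + ε)) := by
    have h2 : ((P.card ^ 2) ^ 2 : ℕ) ≤ T.card * (((K ×ˢ K) ×ˢ (K ×ˢ K)).filter
      (fun q => dist q.1.1 q.1.2 = dist q.2.1 q.2.2)).card :=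
      hcs.trans (Nat.mul_le_mul_left _ hle)
    have h3 : (((P.card ^ 2) ^ 2 : ℕ) : ℝ) ≤ (T.card : ℝ) * ((((K ×ˢ K) ×ˢ (K ×ˢ K)).filter
      (fun q => dist q.1.1 q.1.2 = dist q.2.1 q.2.2)).card : ℝ) := by exact_mod_cast h2
    have h4 : (((P.card ^ 2) ^ 2 : ℕ) : ℝ) = k ^ 4 := by rw [hk]; push_cast; ring
    rw [← h4]
    exact h3.trans (mul_le_mul_of_nonneg_left h1 (Nat.cast_nonneg _))
  have hT2 : (T.card : ℝ) ≤ 2 * (((P.offDiag).image (fun p => dist p.1 p.2)).card : ℝ) := by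
    exact_mod_cast hTc
  have e1 : k ^ (1 / (1:ℝ) - ε) * k ^ (3 + ε) = k ^ 4 := by
    rw [← Real.rpow_add hn0, ← Real.rpow_natCast]
    congr 1
    push_cast
    ring
  have hp : 0 < k ^ (3 + ε) := Real.rpow_pos_of_pos hn0 _
  rw [inv_mul_le_iff₀ (by positivity)]
  have h5 : k ^ (1 / (1:ℝ) - ε) * k ^ (3 + ε) ≤
      (2 * C * (((P.offDiag).image (fun p => dist p.1 p.2)).card : ℝ)) * k ^ (3 + ε) := by
    rw [e1]
    refine hcs2.trans ?_
    have h6 : 0 ≤ C * k ^ (3 + ε) := by positivity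
    nlinarith only [hT2, h6, mul_le_mul_of_nonneg_right hT2 h6]
  exact le_of_mul_le_mul_right h5 hp

/-- exponent `1` in the plane (all distances) -/
theorem sex_dc2_of
    (hGK : open scoped Classical in ∀ ε : ℝ, 0 < ε → ∃ C : ℝ, 0 < C ∧ ∀ K : Finset ℂ,
      ((((K ×ˢ K) ×ˢ (K ×ˢ K)).filter
        (fun q => dist q.1.1 q.1.2 = dist q.2.1 q.2.2)).card : ℝ) ≤ C * (K.card : ℝ) ^ (3 + ε)) :
    Sex 2 (DC 2) 1 :=
  sex_of_lower 2 1 one_pos (fun ε hε => plane_lower hGK ε hε)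

/-- exponent `3 / 2` in space (all distances) -/
theorem sex_dc3_of
    (h3 : open scoped Classical in ∀ ε : ℝ, 0 < ε → ∃ c : ℝ, 0 < c ∧
      ∀ P : Finset (EuclideanSpace ℝ (Fin 3)), 2 ≤ P.card →
        c * (P.card : ℝ) ^ ((2 : ℝ) / 3 - ε) ≤
          (((P.offDiag).image (fun p => dist p.1 p.2)).card : ℝ)) :
    Sex 3 (DC 3) (3 / 2) := by
  apply sex_of_lower 3 (3 / 2) (by norm_num)
  intro ε hε
  obtain ⟨c, hc, h⟩ := h3 ε hε
  refine ⟨c, hc, fun P hP => ?_⟩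
  have := h P hP
  rwa [show (1:ℝ) / (3 / 2) - ε = 2 / 3 - ε by norm_num]

end Vale.Agent.P054I
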