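import Vale.Agent.P054.MathlibUsed
import Vale.Agent.P054.H25.Base
import Vale.Agent.P054.BdN.N7
import Vale.Agent.P054.BdN.N12
import Vale.Agent.P054.BdN.N13

set_option linter.all false
set_option autoImplicit false

namespace Vale.Agent.P054I

theorem sex_dc2 : Sex 2 (DC 2) 1 := by
  apply sex_dc2_of
  intro ε hε
  exact Vale.Agent.P041.SE.gk_energy ε hε

theorem sex_dc3 : Sex 3 (DC 3) (3 / 2) := by
  apply sex_dc3_of
  intro ε hε
  exact Vale.Agent.P054.Fin.space_two_thirds
    (Vale.Agent.P054.Fin.main_of2 Vale.Agent.P054.R.r_stmt Vale.Agent.P054.Y.GF.g_stmt) ε hε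

end Vale.Agent.P054I
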