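import Vale.Agent.P054.MathlibUsed
import Vale.Agent.P054.H239.HSeq
attribute [-instance] ProperSMul.toContinuousSMul IsTopologicalTorsor.toContinuousSMul IdemSemiring.toCanonicallyOrderedAdd IdemSemiring.toMulLeftMono IdemSemiring.toMulRightMono AddQuantale.instAddLeftMono AddQuantale.instAddRightMono Quantale.instMulLeftMono Quantale.instMulRightMono FiniteDimensional.rclike_to_real IsScalarTower.complexToReal FiniteDimensional.complexToReal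

set_option linter.all false
set_option autoImplicit false

open Finset Vale.Agent.P054K Vale.Agent.P054G

namespace Vale.Agent.P054I

/-- the closed form of an exponent -/
noncomputable def bc (d : ℕ) (δ : ℝ) : ℝ := ((d:ℝ) ^ 2 + 1 - δ) / (2 * d)

theorem bc_mul (d : ℕ) (hd : 1 ≤ d) (δ : ℝ) : bc d δ * (2 * (d:ℝ)) = (d:ℝ) ^ 2 + 1 - δ := by
  have h : (1:ℝ) ≤ d := by exact_mod_cast hd
  unfold bc
  exact div_mul_cancel₀ _ (by positivity)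

theorem aS_le_bc (d : ℕ) (hd : 1 ≤ d) {κ γ γ' δ : ℝ} (hκ : 0 ≤ κ) (hγ : γ ≤ γ')
    (h : δ ≤ κ * (bc d δ - γ')) : aS d κ γ ≤ bc d δ := by
  have h0 : (1:ℝ) ≤ d := by exact_mod_cast hd
  have h1 := aS_mul d hd (κ := κ) (γ := γ) hκ
  have h2 := bc_mul d hd δ
  have h3 : (0:ℝ) < 2 * d + κ := by positivity
  refine le_of_mul_le_mul_right ?_ h3
  rw [h1]
  have h4 : κ * γ ≤ κ * γ' := mul_le_mul_of_nonneg_left hγ hκ
  have h5 : bc d δ * (2 * d + κ) = (d:ℝ) ^ 2 + 1 - δ + κ * bc d δ := by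
    rw [← h2]; ring
  rw [h5]
  have h6 : κ * (bc d δ - γ') = κ * bc d δ - κ * γ' := by ring
  linarith only [h, h4, h6]

/-- closed form bound for the exponents -/
theorem bX_closed {κ1 κ2 : ℕ → ℝ} {F d0 : ℕ} {init : ℕ → ℝ}
    (hκ1 : ∀ d, 0 ≤ κ1 d) (hκ1' : ∀ d, κ1 d ≤ 2) (hκ2 : ∀ d, 0 ≤ κ2 d)
    (hd0 : 2 ≤ d0) (hi0 : init 0 = 0)
    (hi : ∀ d, 1 ≤ d → d < d0 → (d:ℝ) / 2 ≤ init d ∧ init d ≤ fd d) (δ : ℝ) (d : ℕ)
    (hd : 3 ≤ d) (hdd : d0 ≤ d) (h1 : δ ≤ κ1 d * (bc d δ - fd (d - 1)))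
    (h2 : δ ≤ κ2 d * (bc d δ - fd (d - 2))) (h3 : aF d F ≤ bc d δ) :
    bX κ1 κ2 F d0 init d ≤ bc d δ := by
  rw [bX_ge _ _ _ _ _ d (by omega) hdd]
  refine max_le (max_le ?_ ?_) h3
  · exact aS_le_bc d (by omega) (hκ1 d)
      (bX_bounds (F := F) hκ1 hκ1' hκ2 hd0 hi0 hi (d - 1) (by omega)).2 h1
  · exact aS_le_bc d (by omega) (hκ2 d)
      (bX_bounds (F := F) hκ1 hκ1' hκ2 hd0 hi0 hi (d - 2) (by omega)).2 h2

theorem aF_le_bc (d F : ℕ) (hd : 3 ≤ d) (δ : ℝ)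
    (h : F * δ * d ≤ ((d:ℝ) - 1) * (d + (1 - δ))) : aF d F ≤ bc d δ := by
  have hD : (3:ℝ) ≤ d := by exact_mod_cast hd
  have h1 := aF_mul d F (by omega)
  have h2 := bc_mul d (by omega) δ
  have h3 : (0:ℝ) ≤ 2 * d * F := by positivity
  have h4 : (0:ℝ) < (2 * d * F + 2 * ((d:ℝ) - 1)) * d := by
    apply mul_pos <;> linarith
  refine le_of_mul_le_mul_right ?_ h4
  have h5 : aF d F * ((2 * d * F + 2 * ((d:ℝ) - 1)) * d) =
      (F * ((d:ℝ) ^ 2 + 1) + ((d:ℝ) - 1) ^ 2) * d := by rw [← h1]; ring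
  have h6 : bc d δ * ((2 * d * F + 2 * ((d:ℝ) - 1)) * d) =
      (bc d δ * (2 * (d:ℝ))) * (d * F + ((d:ℝ) - 1)) := by ring
  rw [h5, h6, h2]
  nlinarith only [h]

theorem fd_sub (d j : ℕ) (hj : j < d) : fd (d - j) = ((((d:ℝ) - j)) ^ 2 + 1) / (2 * ((d:ℝ) - j)) := by
  have hc : ((d - j : ℕ) : ℝ) = (d:ℝ) - j := by rw [Nat.cast_sub (by omega)]
  unfold fd
  rw [hc]

/-- the gap to the exponent in dimension `d - 1` -/
theorem gap1 (d : ℕ) (hd : 3 ≤ d) {δ : ℝ} (hδ : δ ≤ 1) :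
    ((d:ℝ) - 2) / (2 * ((d:ℝ) - 1)) ≤ bc d δ - fd (d - 1) := by
  have hD : (3:ℝ) ≤ d := by exact_mod_cast hd
  have h1 : (0:ℝ) < (d:ℝ) - 1 := by linarith
  have h2 : fd (d - 1) = ((d:ℝ) - 1) / 2 + 1 / (2 * ((d:ℝ) - 1)) := by
    rw [fd_sub d 1 (by omega)]
    push_cast
    field_simp
  have h3 : bc d δ = (d:ℝ) / 2 + (1 - δ) / (2 * d) := by
    unfold bc
    field_simp
    ring
  have h4 : 0 ≤ (1 - δ) / (2 * (d:ℝ)) := div_nonneg (by linarith) (by linarith)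
  have h5 : ((d:ℝ) - 2) / (2 * ((d:ℝ) - 1)) = 1 / 2 - 1 / (2 * ((d:ℝ) - 1)) := by
    field_simp
    ring
  rw [h2, h3, h5]
  linarith

/-- the gap to the exponent in dimension `d - 2` -/
theorem gap2 (d : ℕ) (hd : 3 ≤ d) {δ : ℝ} :
    1 + (1 - δ) / (2 * d) - 1 / (2 * ((d:ℝ) - 2)) = bc d δ - fd (d - 2) := by
  have hD : (3:ℝ) ≤ d := by exact_mod_cast hd
  have h1 : (0:ℝ) < (d:ℝ) - 2 := by linarith
  have h2 : fd (d - 2) = ((d:ℝ) - 2) / 2 + 1 / (2 * ((d:ℝ) - 2)) := by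
    rw [fd_sub d 2 (by omega)]
    push_cast
    field_simp
  have h3 : bc d δ = (d:ℝ) / 2 + (1 - δ) / (2 * d) := by
    unfold bc
    field_simp
    ring
  rw [h2, h3]
  ring

theorem Sex.mono' {d : ℕ} {S : ℕ → Finset (EuclideanSpace ℝ (Fin d)) → Prop} {α β : ℝ}
    (h : Sex d S α) (hab : α ≤ β) : Sex d S β := by
  intro ε hε
  obtain ⟨C, hC, h1⟩ := h ε hε
  refine ⟨C, hC, fun t ht P hP => (h1 t ht P hP).trans ?_⟩
  apply mul_le_mul_of_nonneg_left _ hC.le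
  have ht1 : (1:ℝ) ≤ t := by exact_mod_cast ht
  exact Real.rpow_le_rpow_of_exponent_le ht1 (by linarith only [hab])

theorem pex_of_sex {d : ℕ} {α : ℝ} (h : Sex d (PC d) α) : Pex d α := by
  intro ε hε
  obtain ⟨C, hC, h1⟩ := h ε hε
  exact ⟨C, hC, fun t ht P hP => h1 t ht P hP⟩

/-! ### version A -/

theorem bA_closed_aux (d : ℕ) (hd : 3 ≤ d) :
    (1 / 9 : ℝ) ≤ k1A d * (bc d (1 / 9) - fd (d - 1)) ∧
    (1 / 9 : ℝ) ≤ k2A d * (bc d (1 / 9) - fd (d - 2)) ∧ aF d 12 ≤ bc d (1 / 9) := by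
  have hD : (3:ℝ) ≤ d := by exact_mod_cast hd
  refine ⟨?_, ?_, ?_⟩
  · have h2 : fd (d - 1) = ((d:ℝ) - 1) / 2 + 1 / (2 * ((d:ℝ) - 1)) := by
      have h1 : (0:ℝ) < (d:ℝ) - 1 := by linarith
      rw [fd_sub d 1 (by omega)]
      push_cast
      field_simp
    have h3 : bc d (1 / 9) = (d:ℝ) / 2 + 4 / (9 * d) := by
      unfold bc
      field_simp
      ring
    unfold k1A
    rw [h2, h3]
    have h4 : 1 / (2 * ((d:ℝ) - 1)) ≤ 1 / 6 + 4 / (9 * d) := by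
      rw [div_add_div _ _ (by norm_num) (by positivity),
        div_le_div_iff₀ (by linarith) (by positivity)]
      nlinarith
    linarith
  · rw [← gap2 d hd]
    have h1 : (0:ℝ) < (d:ℝ) - 2 := by linarith
    unfold k2A
    rw [if_neg (by omega)]
    rw [div_mul_eq_mul_div, le_div_iff₀ (by linarith)]
    have h4 : 1 / (2 * ((d:ℝ) - 2)) * ((d:ℝ) - 1) = 1 / 2 + 1 / (2 * ((d:ℝ) - 2)) := by
      field_simp
      ring
    have h5 : 1 / (2 * ((d:ℝ) - 2)) ≤ 1 / 2 := by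
      rw [div_le_div_iff₀ (by linarith) (by norm_num)]
      linarith
    have h6 : 0 ≤ ((d:ℝ) - 1) * ((1 - 1 / 9) / (2 * d)) :=
      mul_nonneg (by linarith) (by positivity)
    nlinarith only [h4, h5, h6]
  · apply aF_le_bc d 12 hd
    push_cast
    nlinarith

theorem bPA_closed (d : ℕ) (hd : 3 ≤ d) : bPA d ≤ bc d (1 / 9) := by
  obtain ⟨h1, h2, h3⟩ := bA_closed_aux d hd
  exact bX_closed (fun _ => by unfold k1A; norm_num) (fun _ => by unfold k1A; norm_num)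
    (fun d => (k2A_pos d).le) le_rfl (by simp [iP]) iP_ok _ d hd (by omega) h1 h2 h3

theorem bDA_closed (d : ℕ) (hd : 4 ≤ d) : bDA d ≤ bc d (1 / 9) := by
  obtain ⟨h1, h2, h3⟩ := bA_closed_aux d (by omega)
  exact bX_closed (fun _ => by unfold k1A; norm_num) (fun _ => by unfold k1A; norm_num)
    (fun d => (k2A_pos d).le) (by norm_num) (by simp [iD]) iD_ok _ d (by omega) hd h1 h2 h3

end Vale.Agent.P054I
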