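import Vale.Agent.P054.MathlibUsed
import Vale.Agent.P054.Bdl.B2
attribute [-instance] ProperSMul.toContinuousSMul IsTopologicalTorsor.toContinuousSMul IdemSemiring.toCanonicallyOrderedAdd IdemSemiring.toMulLeftMono IdemSemiring.toMulRightMono AddQuantale.instAddLeftMono AddQuantale.instAddRightMono Quantale.instMulLeftMono Quantale.instMulRightMono FiniteDimensional.rclike_to_real IsScalarTower.complexToReal FiniteDimensional.complexToReal

set_option linter.all false
set_option autoImplicit false

open Finset

/-! P054, few points on `k`-flats: definitions. -/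

namespace Vale.Agent.P054F

/-- exponent of the number of distances -/
noncomputable def al (a k : ℕ) : ℝ := (a:ℝ) * ((a:ℝ) - k) / (2 * a - k - 1)

/-- exponent of the number of points on a flat -/
noncomputable def be (a k : ℕ) : ℝ := ((a:ℝ) - 1) / (2 * a - k - 1)

open scoped Classical in
/-- every `k`-flat has at most `m` points of `P` -/
def KF {d : ℕ} (k m : ℕ) (P : Finset (EuclideanSpace ℝ (Fin d))) : Prop :=
  ∀ E : AffineSubspace ℝ (EuclideanSpace ℝ (Fin d)), Module.finrank ℝ E.direction = k →
    (P.filter (fun z => z ∈ E)).card ≤ m

/-- every set in dimension `d`, all of whose points see at most `t` nonzero distances and with at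
most `m` points on every `k`-flat, has at most `g` points -/
def PF (d k t m : ℕ) (g : ℝ) : Prop :=
  ∀ P : Finset (EuclideanSpace ℝ (Fin d)), (∀ p ∈ P, (P.image (dist p)).card ≤ t + 1) →
    KF k m P → (P.card : ℝ) ≤ g

end Vale.Agent.P054F
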