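import Vale.Agent.P054.H25.Defs
import Vale.Agent.P054.H25.Kr
attribute [-instance] ProperSMul.toContinuousSMul IsTopologicalTorsor.toContinuousSMul IdemSemiring.toCanonicallyOrderedAdd IdemSemiring.toMulLeftMono IdemSemiring.toMulRightMono AddQuantale.instAddLeftMono AddQuantale.instAddRightMono Quantale.instMulLeftMono Quantale.instMulRightMono FiniteDimensional.rclike_to_real IsScalarTower.complexToReal FiniteDimensional.complexToReal

set_option linter.all false
set_option autoImplicit false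

open Finset

/-! P054: the key inequality with the count of independent tuples. -/

namespace Vale.Agent.P054F

open Vale.Agent.P054K

/-- from the tuple count to the number of points -/
theorem kr_numeric (r d : ℕ) (hrd : r ≤ d) (N n x L M Tc : ℝ) (hn : 0 < n) (hx : 0 ≤ x) (hL : 1 ≤ L)
    (hM : 0 ≤ M) (hT0 : 0 ≤ Tc) (hT : Tc ≤ n * x) (hN : 0 ≤ N)
    (h : N * ((n / 4 * (1 / L ^ d)) / 2) ^ r ≤ Tc ^ r * M) :
    N ≤ (8 * L ^ d) ^ (d + 1) * (x ^ r * M) := by
  have hL0 : 0 < L := by linarith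
  have hLd : (1:ℝ) ≤ L ^ d := one_le_pow₀ hL
  have h1 : (n / 4 * (1 / L ^ d)) / 2 = n / (8 * L ^ d) := by field_simp; ring
  rw [h1, div_pow] at h
  have h2 : Tc ^ r ≤ (n * x) ^ r := pow_le_pow_left₀ hT0 hT r
  have h3 : N * (n ^ r / (8 * L ^ d) ^ r) ≤ (n * x) ^ r * M :=
    h.trans (mul_le_mul_of_nonneg_right h2 hM)
  have hnr : 0 < n ^ r := by positivity
  have h8 : 0 < (8 * L ^ d) ^ r := by positivity
  have h4 : N ≤ (8 * L ^ d) ^ r * (x ^ r * M) := by
    have h5 : N * (n ^ r / (8 * L ^ d) ^ r) = (N / (8 * L ^ d) ^ r) * n ^ r := by field_simp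
    have h6 : (n * x) ^ r * M = (x ^ r * M) * n ^ r := by rw [mul_pow]; ring
    rw [h5, h6] at h3
    have h7 := le_of_mul_le_mul_right h3 hnr
    rw [div_le_iff₀ h8] at h7
    linarith
  refine h4.trans ?_
  apply mul_le_mul_of_nonneg_right _ (by positivity)
  exact pow_le_pow_right₀ (by linarith) (by omega)

open scoped Classical in
theorem key_flats (d : ℕ) (hd : 2 ≤ d) : ∃ (K : ℝ) (c : ℕ), 1 ≤ K ∧
    ∀ (P : Finset (EuclideanSpace ℝ (Fin d))) (t x s r : ℕ) (Λ M : ℝ) (G : ℕ → ℝ),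
      (∀ p ∈ P, (P.image (dist p)).card ≤ t + 1) → 1 ≤ s → 1 ≤ x →
      20 * (Real.log ((P.card:ℝ) * x + 3) + 1) ≤ Λ →
      4 * x * (2 * s + 1) ^ d ≤ P.card → 100 * ((t:ℝ) + 1) * Λ / s + 4 ≤ x →
      K * Λ ^ c ≤ s → r ≤ d →
      (∀ w, 2 ≤ w → w < r → ∀ A : Submodule ℝ (EuclideanSpace ℝ (Fin d) × ℝ),
        Module.finrank ℝ A = w → ((P.filter (fun p => A ≤ hyp p)).card : ℝ) ≤ G w) →
      0 ≤ M →
      (∀ A : Submodule ℝ (EuclideanSpace ℝ (Fin d) × ℝ),
        Module.finrank ℝ A = r → ((P.filter (fun p => A ≤ hyp p)).card : ℝ) ≤ M) →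
      (P.card : ℝ) ≤ K * Λ ^ c * (∑ w ∈ Ico 2 r, ((x:ℝ) ^ w / s + (x:ℝ) ^ (w - 1)) * G w
        + (x:ℝ) ^ r * M) := by
  obtain ⟨K00, c0, hK00, hET0⟩ := et_uniform d
  obtain ⟨K0, hK0def⟩ : ∃ K0 : ℝ, K0 = 2 * K00 := ⟨_, rfl⟩
  have hK02 : 2 ≤ K0 := by rw [hK0def]; linarith
  have hK0 : 1 ≤ K0 := by linarith
  have hET : ∀ w, 2 ≤ w → w ≤ d → ETProp w K0 c0 := fun w h1 h2 =>
    et_mono hK00 (by rw [hK0def]; linarith) le_rfl (hET0 w h1 h2)
  have hK0d : (1:ℝ) ≤ K0 ^ d := one_le_pow₀ hK0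
  refine ⟨5 * K0 * (8 * K0 ^ d) ^ (d + 1), 1 + c0 + c0 * d * (d + 1), ?_, ?_⟩
  · have h1 : (1:ℝ) ≤ (8 * K0 ^ d) ^ (d + 1) := one_le_pow₀ (by linarith only [hK0d])
    nlinarith only [hK0, h1]
  intro P t x s r Λ M G ht hs hx hΛ h1 h2 hKs hrd hG hM0 hM
  have hx' : (1:ℝ) ≤ x := by exact_mod_cast hx
  have hs' : (0:ℝ) < s := by exact_mod_cast hs
  have hP : 0 < P.card := by
    have : 0 < 4 * x * (2 * s + 1) ^ d := by positivity
    omega
  set n : ℝ := (P.card : ℝ) with hn
  have hn1 : (1:ℝ) ≤ n := by rw [hn]; exact_mod_cast hP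
  have hn0 : 0 < n := by linarith only [hn1]
  have hlogx : Real.log (n + 3) ≤ Real.log (n * x + 3) :=
    Real.log_le_log (by (clear * - hP; positivity)) (by linarith only [mul_nonneg (sub_nonneg.2 hx') (le_of_lt (sub_pos.2 hn0))])
  have hlog : 0 ≤ Real.log (n + 3) := Real.log_nonneg (by linarith only [hn1])
  have hΛ1 : 1 ≤ Λ := by linarith only [hΛ, hlogx, hlog]
  set L : ℝ := K0 * Λ ^ c0 with hL
  have hLE : (5 * K0 * (8 * K0 ^ d) ^ (d + 1)) * Λ ^ (1 + c0 + c0 * d * (d + 1))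
      = 5 * Λ * L * (8 * L ^ d) ^ (d + 1) := by
    rw [hL, mul_pow K0 (Λ ^ c0) d, mul_pow, mul_pow 8 (K0 ^ d * (Λ ^ c0) ^ d), mul_pow (K0 ^ d),
      pow_add, pow_add, pow_one, ← pow_mul Λ c0 d, ← pow_mul Λ (c0 * d)]
    ring
  rw [hLE]
  rw [hLE] at hKs
  have hL2 : 2 ≤ L := by
    have : (1:ℝ) ≤ Λ ^ c0 := one_le_pow₀ hΛ1
    rw [hL]; nlinarith only [hK02, this]
  have hL1 : 1 ≤ L := by linarith only [hL2]
  have hL0 : 0 < L := by linarith only [hL1]
  have hLd : (1:ℝ) ≤ L ^ d := one_le_pow₀ hL1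
  -- basic size of s
  have hsL : 5 * Λ * L * L ^ d ≤ s := by
    refine le_trans ?_ hKs
    have h3 : L ^ d ≤ (8 * L ^ d) ^ (d + 1) := by
      calc L ^ d ≤ 8 * L ^ d := by linarith only [hLd]
        _ = (8 * L ^ d) ^ 1 := (pow_one _).symm
        _ ≤ (8 * L ^ d) ^ (d + 1) := pow_le_pow_right₀ (by linarith only [hLd]) (by omega)
    exact mul_le_mul_of_nonneg_left h3 (by (clear * - hK0 hΛ1; positivity))
  obtain ⟨T, hT1, hT2, hT3, hT4⟩ := exists_pairs d (by omega) P t x s Λ (by linarith only [hΛ,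
                                                                              hlogx, hlog]) ht hs hx h1 h2
  -- set up
  set m : ℝ := n * Λ / s with hm
  have hm0 : 0 < m := by (clear * - hs hP hΛ1; positivity)
  set θ : ℕ → ℝ := fun w => n / 4 * (L ^ w / L ^ d) with hθ
  have hθpos : ∀ w, 0 < θ w := fun w => by simp only [hθ]; (clear * - hK0 hP hΛ1; positivity)
  have hθsucc : ∀ w, L * θ w = θ (w + 1) := by
    intro w; simp only [hθ]; rw [pow_succ]; ring
  have hθmono : ∀ w w', w ≤ w' → θ w ≤ θ w' := by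
    intro w w' hww
    simp only [hθ]
    apply mul_le_mul_of_nonneg_left _ (by (clear * - hP; positivity))
    apply div_le_div_of_nonneg_right _ (by positivity)
    exact pow_le_pow_right₀ hL1 hww
  have hmθ : L * m ≤ θ 0 := by
    simp only [hθ, pow_zero, hm]
    rw [mul_div_assoc', mul_one_div, div_le_div_iff₀ hs' (by positivity)]
    have h3 : 5 * Λ * L * L ^ d * n ≤ s * n := mul_le_mul_of_nonneg_right hsL hn0.le
    have h4 : 0 < Λ * L * L ^ d * n := by (clear * - hK0 hP hΛ1; positivity)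
    linarith only [h3, h4]
  have hm1 : m < θ 1 := by
    have h3 : L * m ≤ θ 0 := hmθ
    have h4 : m ≤ L * m := le_mul_of_one_le_left hm0.le hL1
    -- strictness
    simp only [hθ, pow_one, hm]
    rw [div_lt_iff₀ hs']
    have h5 : n / 4 * (L / L ^ d) * (5 * Λ * L * L ^ d) ≤ n / 4 * (L / L ^ d) * s :=
      mul_le_mul_of_nonneg_left hsL (by (clear * - hK0 hP hΛ1; positivity))
    have h6 : n / 4 * (L / L ^ d) * (5 * Λ * L * L ^ d) = 5 / 4 * (n * Λ) * L ^ 2 := by
      (clear * - hn1 hΛ1 hL1; field_simp)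
    rw [h6] at h5
    have h7 : (1:ℝ) ≤ L ^ 2 := one_le_pow₀ hL1
    have h8 : 0 < n * Λ := by (clear * - hP hΛ1; positivity)
    linarith only [mul_nonneg (sub_nonneg.2 h7) (le_of_lt (sub_pos.2 h8)), h8, h5]
  have hv0 : ∀ π ∈ T, dualVec π ≠ 0 := fun π hπ => dualVec_ne_zero π (hT1 π hπ).2.2
  -- the minimal rich subspaces
  have hmin : ∀ p ∈ P, ∃ w, w ≤ d ∧ ∃ A : Submodule ℝ (EuclideanSpace ℝ (Fin d) × ℝ), A ≤ hyp p ∧
      Module.finrank ℝ A = w ∧ θ w ≤ mass T dualVec A ∧
      ∀ B : Submodule ℝ (EuclideanSpace ℝ (Fin d) × ℝ), B < A → Module.finrank ℝ B < w ∧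
        mass T dualVec B < θ (Module.finrank ℝ B) := by
    intro p hp
    apply exists_minimal_rich T dualVec (hyp p) d (finrank_hyp p) θ
    have h3 := hT3 p hp
    have h4 : mass T dualVec (hyp p) = ((T.filter (fun π => dist p π.1 = dist p π.2)).card : ℝ) := by
      unfold mass
      congr 2
      apply Finset.filter_congr
      intro π _
      rw [dualVec_mem_hyp]
    rw [h4]
    simp only [hθ]
    rw [div_self (by positivity), mul_one]
    have h5 : n ≤ 4 * ((T.filter (fun π => dist p π.1 = dist p π.2)).card : ℝ) := by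
      rw [hn]; exact_mod_cast h3
    linarith only [h5]
  choose! wp hwd Ap hAp hfr hrich hBmin using hmin
  have hw2 : ∀ p ∈ P, 2 ≤ wp p := by
    intro p hp
    by_contra hcon
    push Not at hcon
    interval_cases hwp : wp p
    · have h3 := mass_of_finrank_zero T dualVec hv0 (Ap p) (by rw [hfr p hp, hwp])
      have h4 := hrich p hp
      rw [h3, hwp] at h4
      exact absurd (hθpos 0) (not_lt.mpr h4)
    · have h3 := mass_of_finrank_one T dualVec m hm0.le hv0 hT4 (Ap p) (by rw [hfr p hp, hwp])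
      have h4 := hrich p hp
      rw [hwp] at h4
      linarith only [hm1, h3, h4]
  have hnd : ∀ p ∈ P, ∀ B : Submodule ℝ (EuclideanSpace ℝ (Fin d) × ℝ), B < Ap p →
      L * mass T dualVec B ≤ mass T dualVec (Ap p) := by
    intro p hp B hB
    obtain ⟨h3, h4⟩ := hBmin p hp B hB
    calc L * mass T dualVec B ≤ L * θ (Module.finrank ℝ B) :=
          mul_le_mul_of_nonneg_left h4.le hL0.le
      _ = θ (Module.finrank ℝ B + 1) := hθsucc _
      _ ≤ θ (wp p) := hθmono _ _ h3
      _ ≤ mass T dualVec (Ap p) := hrich p hp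
  -- the points with small `wp`
  have hlow : ∀ w ∈ Ico 2 r, ((P.filter (fun p => wp p = w)).card : ℝ) ≤
      5 * Λ * L * (8 * L ^ d) ^ (d + 1) * (((x:ℝ) ^ w / s + (x:ℝ) ^ (w - 1)) * G w) := by
    intro w hw
    rw [mem_Ico] at hw
    set Pw := P.filter (fun p => wp p = w) with hPw
    set Zw := Pw.image Ap with hZw
    rcases Pw.eq_empty_or_nonempty with hPe | ⟨p₁, hp₁⟩
    · rw [hPe]
      simp only [card_empty, Nat.cast_zero]
      -- `G w ≥ 0`: some subspace of dimension `w` exists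
      have hGw0 : 0 ≤ G w := by
        obtain ⟨A, hA⟩ : ∃ A : Submodule ℝ (EuclideanSpace ℝ (Fin d) × ℝ),
            Module.finrank ℝ A = w := by
          have hfin : w ≤ Module.finrank ℝ (EuclideanSpace ℝ (Fin d) × ℝ) := by
            rw [Module.finrank_prod, finrank_euclideanSpace_fin, Module.finrank_self]
            omega
          obtain ⟨f, hf⟩ := exists_linearIndependent_of_le_finrank hfin
          exact ⟨Submodule.span ℝ (Set.range f), by rw [finrank_span_eq_card hf, Fintype.card_fin]⟩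
        exact le_trans (by positivity) (hG w hw.1 hw.2 A hA)
      have : (0:ℝ) ≤ (x:ℝ) ^ w / s + (x:ℝ) ^ (w - 1) := by positivity
      exact mul_nonneg (by positivity) (mul_nonneg this hGw0)
    have hG0 : 0 ≤ G w := by
      have hp₁' := mem_filter.mp hp₁
      exact le_trans (by positivity) (hG w hw.1 hw.2 (Ap p₁) (by rw [hfr p₁ hp₁'.1, hp₁'.2]))
    have hfib : (Pw.card : ℝ) ≤ Zw.card * G w := by
      have h3 : Pw.card = ∑ A ∈ Zw, (Pw.filter (fun p => Ap p = A)).card :=
        Finset.card_eq_sum_card_fiberwise (fun p hp => mem_image_of_mem Ap hp)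
      rw [h3]
      push_cast
      calc ∑ A ∈ Zw, ((Pw.filter (fun p => Ap p = A)).card : ℝ) ≤ ∑ _A ∈ Zw, G w := by
            apply Finset.sum_le_sum
            intro A hA
            rw [hZw, mem_image] at hA
            obtain ⟨q, hq, hqA⟩ := hA
            have hq' := mem_filter.mp hq
            refine le_trans ?_ (hG w hw.1 hw.2 A (by rw [← hqA, hfr q hq'.1, hq'.2]))
            have h5 : (Pw.filter (fun p => Ap p = A)).card ≤ (P.filter (fun p => A ≤ hyp p)).card := by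
              apply card_le_card
              intro p hp
              have h6 := mem_filter.mp hp
              have h7 := mem_filter.mp h6.1
              rw [mem_filter]
              refine ⟨h7.1, ?_⟩
              rw [← h6.2]
              exact hAp p h7.1
            exact_mod_cast h5
        _ = Zw.card * G w := by rw [Finset.sum_const, nsmul_eq_mul]
    have hZ := hET w hw.1 (by omega) (EuclideanSpace ℝ (Fin d) × ℝ)
      (EuclideanSpace ℝ (Fin d) × EuclideanSpace ℝ (Fin d)) T dualVec m (n * x) (θ w) Λ Zw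
      hv0 hT4 hm0 (by rw [hn]; exact_mod_cast hT2) hΛ
      (hmθ.trans (hθmono 0 w (by omega)))
      (by
        intro A hA
        rw [hZw, mem_image] at hA
        obtain ⟨q, hq, rfl⟩ := hA
        have hq' := mem_filter.mp hq
        exact ⟨by rw [hfr q hq'.1, hq'.2], by rw [← hq'.2]; exact hrich q hq'.1, hnd q hq'.1⟩)
    have hZ2 := hZ.trans (rich_numeric d w (by omega) hw.1 n x s L Λ hn0 (by linarith only [hx']) hs' hL1 hΛ1)
    have h48 : (4 * L ^ d) ^ (d + 1) ≤ (8 * L ^ d) ^ (d + 1) :=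
      pow_le_pow_left₀ (by positivity) (by linarith only [hLd]) _
    have hxs : (0:ℝ) ≤ (x:ℝ) ^ w / s + (x:ℝ) ^ (w - 1) := by positivity
    calc (Pw.card : ℝ) ≤ Zw.card * G w := hfib
      _ ≤ (5 * Λ * L * (4 * L ^ d) ^ (d + 1) * ((x:ℝ) ^ w / s + (x:ℝ) ^ (w - 1))) * G w :=
          mul_le_mul_of_nonneg_right hZ2 hG0
      _ ≤ (5 * Λ * L * (8 * L ^ d) ^ (d + 1) * ((x:ℝ) ^ w / s + (x:ℝ) ^ (w - 1))) * G w := by
          apply mul_le_mul_of_nonneg_right _ hG0
          apply mul_le_mul_of_nonneg_right _ hxs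
          exact mul_le_mul_of_nonneg_left h48 (by positivity)
      _ = _ := by ring
  -- the points with large `wp`
  have hhigh : ((P.filter (fun p => ¬ wp p < r)).card : ℝ) ≤
      5 * Λ * L * (8 * L ^ d) ^ (d + 1) * ((x:ℝ) ^ r * M) := by
    have h3 := kr_count P (P.filter (fun p => ¬ wp p < r)) T Ap r L (n / 4 * (1 / L ^ d)) M hL2
      (filter_subset _ _) (fun p hp => hAp p (mem_filter.mp hp).1)
      (fun p hp => by rw [hfr p (mem_filter.mp hp).1]; exact not_lt.mp (mem_filter.mp hp).2)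
      (fun p hp => by
        refine le_trans ?_ (hrich p (mem_filter.mp hp).1)
        have h4 := hθmono 0 (wp p) (Nat.zero_le _)
        simp only [hθ, pow_zero] at h4 ⊢
        exact h4)
      (by positivity) (fun p hp => hnd p (mem_filter.mp hp).1) hM0 hM
    have h4 := kr_numeric r d hrd _ n x L M T.card hn0 (by linarith only [hx']) hL1 hM0 (by positivity)
      (by rw [hn]; exact_mod_cast hT2) (by positivity) h3
    refine h4.trans ?_
    have h5 : (0:ℝ) ≤ (8 * L ^ d) ^ (d + 1) * ((x:ℝ) ^ r * M) := by positivity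
    have h6 : (1:ℝ) ≤ 5 * Λ * L := by nlinarith only [hΛ1, hL1]
    calc (8 * L ^ d) ^ (d + 1) * ((x:ℝ) ^ r * M) = 1 * ((8 * L ^ d) ^ (d + 1) * ((x:ℝ) ^ r * M)) := by ring
      _ ≤ (5 * Λ * L) * ((8 * L ^ d) ^ (d + 1) * ((x:ℝ) ^ r * M)) := mul_le_mul_of_nonneg_right h6 h5
      _ = _ := by ring
  -- sum
  have hsum1 : (P.filter (fun p => wp p < r)).card = ∑ w ∈ Ico 2 r, (P.filter (fun p => wp p = w)).card := by
    have h3 : (P.filter (fun p => wp p < r)).card =
        ∑ w ∈ Ico 2 r, ((P.filter (fun p => wp p < r)).filter (fun p => wp p = w)).card := by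
      apply Finset.card_eq_sum_card_fiberwise
      intro p hp
      have hp' := mem_filter.mp (mem_coe.mp hp)
      rw [mem_coe, mem_Ico]
      exact ⟨hw2 p hp'.1, hp'.2⟩
    rw [h3]
    apply Finset.sum_congr rfl
    intro w hw
    rw [mem_Ico] at hw
    congr 1
    ext p
    simp only [mem_filter]
    constructor
    · rintro ⟨⟨a, _⟩, b⟩; exact ⟨a, b⟩
    · rintro ⟨a, b⟩; exact ⟨⟨a, by omega⟩, b⟩
  have hsum2 : (P.filter (fun p => wp p < r)).card + (P.filter (fun p => ¬ wp p < r)).card = P.card :=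
    Finset.card_filter_add_card_filter_not _
  have hsum3 : n = ∑ w ∈ Ico 2 r, ((P.filter (fun p => wp p = w)).card : ℝ) +
      ((P.filter (fun p => ¬ wp p < r)).card : ℝ) := by
    rw [hn, ← hsum2, hsum1]; push_cast; ring
  rw [hsum3, mul_add, Finset.mul_sum]
  exact add_le_add (Finset.sum_le_sum hlow) hhigh

end Vale.Agent.P054F
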