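import Vale.Agent.P054.MathlibUsed
import Vale.Agent.P054.Bdl.B5
import Vale.Agent.P054.H25.Key
import Vale.Agent.P054.H343.Flat
attribute [-instance] ProperSMul.toContinuousSMul IsTopologicalTorsor.toContinuousSMul IdemSemiring.toCanonicallyOrderedAdd IdemSemiring.toMulLeftMono IdemSemiring.toMulRightMono AddQuantale.instAddLeftMono AddQuantale.instAddRightMono Quantale.instMulLeftMono Quantale.instMulRightMono FiniteDimensional.rclike_to_real IsScalarTower.complexToReal FiniteDimensional.complexToReal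

set_option linter.all false
set_option autoImplicit false

open Finset

/-! P054, few points on `k`-flats: the induction on the dimension. -/

namespace Vale.Agent.P054F

open Vale.Agent.P054K

/-- the real-number step of the induction (proved in `H420/Num.lean`) -/
def NumStep (d k : ℕ) : Prop :=
  ∀ K : ℝ, 1 ≤ K → ∀ (c : ℕ) (e : ℝ), 0 < e → ∃ e1 : ℝ, 0 < e1 ∧ ∃ e2 : ℝ, 0 < e2 ∧
    ∀ C1 C2 : ℝ, 0 < C1 → 0 < C2 → ∃ C : ℝ, 0 < C ∧
      ∀ (n t m : ℕ) (mu : ℝ), (m:ℝ) ≤ mu → 1 ≤ mu →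
        (d ≤ k + 2 ∨ ((t:ℝ) + 1) ^ (((k:ℝ) - 1) / 2) ≤ mu) →
        (n:ℝ) ≤ C1 * ((t:ℝ) + 1) ^ ((d:ℝ) ^ 2 / (2 * d - 1) + e1) →
        (∀ (x s : ℕ) (L : ℝ), 1 ≤ s → 1 ≤ x → 20 * (Real.log ((n:ℝ) * x + 3) + 1) ≤ L →
          4 * x * (2 * s + 1) ^ d ≤ n → 100 * ((t:ℝ) + 1) * L / s + 4 ≤ x → K * L ^ c ≤ s →
          (n:ℝ) ≤ K * L ^ c * (∑ w ∈ Ico 2 (d - k), ((x:ℝ) ^ w / s + (x:ℝ) ^ (w - 1)) *
            (C2 * ((t:ℝ) + 1) ^ (al (d - w) k + e2) * mu ^ (be (d - w) k))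
            + (x:ℝ) ^ (d - k) * m)) →
        (n:ℝ) ≤ C * ((t:ℝ) + 1) ^ (al d k + e) * mu ^ (be d k)

theorem PF.mono {d k t m : ℕ} {g g' : ℝ} (h : PF d k t m g) (hg : g ≤ g') : PF d k t m g' :=
  fun P hP hK => (h P hP hK).trans hg

theorem main_flats_of (k : ℕ) (hk : 1 ≤ k) (hnum : ∀ d, k < d → NumStep d k) (d : ℕ) : k < d →
    ∀ e : ℝ, 0 < e → ∃ C : ℝ, 0 < C ∧ ∀ (t m : ℕ) (mu : ℝ), (m:ℝ) ≤ mu → 1 ≤ mu →
      (d ≤ k + 2 ∨ ((t:ℝ) + 1) ^ (((k:ℝ) - 1) / 2) ≤ mu) →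
      PF d k t m (C * ((t:ℝ) + 1) ^ (al d k + e) * mu ^ (be d k)) := by
  induction d using Nat.strong_induction_on with
  | _ d ih =>
    intro hkd e he
    obtain ⟨K, c, hK, hkey⟩ := key_flats d (by omega)
    obtain ⟨e1, he1, e2, he2, hN⟩ := hnum d hkd K hK c e he
    obtain ⟨C1, hC1, hC1b⟩ := main_pinned d e1 he1
    have hlow : ∀ j : ℕ, ∃ C : ℝ, 0 < C ∧ (k < j → j < d → ∀ (t m : ℕ) (mu : ℝ), (m:ℝ) ≤ mu →
        1 ≤ mu → (j ≤ k + 2 ∨ ((t:ℝ) + 1) ^ (((k:ℝ) - 1) / 2) ≤ mu) →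
        PF j k t m (C * ((t:ℝ) + 1) ^ (al j k + e2) * mu ^ (be j k))) := by
      intro j
      by_cases hj : k < j ∧ j < d
      · obtain ⟨C, hC, hCb⟩ := ih j hj.2 hj.1 e2 he2
        exact ⟨C, hC, fun _ _ => hCb⟩
      · exact ⟨1, one_pos, fun h1 h2 => absurd ⟨h1, h2⟩ hj⟩
    choose Cf hCf0 hCf using hlow
    obtain ⟨C2, hC2⟩ : ∃ C2 : ℝ, C2 = 1 + ∑ j ∈ range d, Cf j := ⟨_, rfl⟩
    have hsum0 : 0 ≤ ∑ j ∈ range d, Cf j := sum_nonneg (fun j _ => (hCf0 j).le)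
    have hC20 : 0 < C2 := by rw [hC2]; linarith only [hsum0]
    have hCfle : ∀ j, j < d → Cf j ≤ C2 := by
      intro j hj
      have h1 : Cf j ≤ ∑ j ∈ range d, Cf j :=
        single_le_sum (f := Cf) (fun i _ => (hCf0 i).le) (mem_range.mpr hj)
      rw [hC2]; linarith only [h1]
    obtain ⟨C, hC, hCN⟩ := hN C1 C2 hC1 hC20
    refine ⟨C, hC, ?_⟩
    intro t m mu hm hmu hcond P hP hPK
    apply hCN P.card t m mu hm hmu hcond
    · have h1 := hC1b (t + 1) (by omega) P (fun p hp => (hP p hp).trans (by omega))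
      push_cast at h1
      exact h1
    · intro x s L hs hx hL h4 hxs hKs
      have hT : (0:ℝ) < (t:ℝ) + 1 := by positivity
      have hmu0 : 0 < mu := by linarith only [hmu]
      have key := hkey P t x s (d - k) L (m:ℝ)
        (fun w => C2 * ((t:ℝ) + 1) ^ (al (d - w) k + e2) * mu ^ (be (d - w) k))
        hP hs hx hL h4 hxs hKs (by omega) ?_ (by positivity) ?_
      · exact key
      · intro w hw2 hwr A hA
        have hj1 : k < d - w := by omega
        have hj2 : d - w < d := by omega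
        have hcond' : (d - w ≤ k + 2 ∨ ((t:ℝ) + 1) ^ (((k:ℝ) - 1) / 2) ≤ mu) := by
          rcases hcond with h | h
          · left; omega
          · right; exact h
        have h1 := hCf (d - w) hj1 hj2 t m mu hm hmu hcond'
        have h2 : Cf (d - w) * ((t:ℝ) + 1) ^ (al (d - w) k + e2) * mu ^ (be (d - w) k) ≤
            C2 * ((t:ℝ) + 1) ^ (al (d - w) k + e2) * mu ^ (be (d - w) k) := by
          have h3 := hCfle (d - w) hj2
          have h4 : 0 ≤ ((t:ℝ) + 1) ^ (al (d - w) k + e2) := by positivity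
          have h5 : 0 ≤ mu ^ (be (d - w) k) := by positivity
          exact mul_le_mul_of_nonneg_right (mul_le_mul_of_nonneg_right h3 h4) h5
        have h3 := flat_bound2 P hP hPK A (j := d - w) (by omega) (h1.mono h2)
        convert h3 using 3
      · intro A hA
        have h3 := kf_fibre P hPK A (by omega)
        convert h3 using 3

end Vale.Agent.P054F
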